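import Vale.Agent.P158.H446.Kak
import Mathlib.MeasureTheory.Measure.Prod
import Mathlib.Topology.Algebra.InfiniteSum.Real
import Mathlib.Analysis.SpecialFunctions.Pow.NNReal

/-! Null sets which are invariant under finite changes stay null under product measures which are
close in the sense of Kakutani. -/

namespace Vale.Agent.P158.H446

open MeasureTheory Measure ProbabilityTheory Set
open scoped ENNReal symmDiff

section
variable {ι : Type*} {X : ι → Type*} [∀ i, MeasurableSpace (X i)]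
  (μ ν : ∀ i, Measure (X i)) [∀ i, IsProbabilityMeasure (μ i)] [∀ i, IsProbabilityMeasure (ν i)]

/-- The inequality for null sets. -/
theorem le_compl_null {C : Set (∀ i, X i)} (hC : MeasurableSet C) (h0 : infinitePi ν C = 0)
    {ρ : ℝ≥0∞} (hρ : ∀ J : Finset ι, ρ ≤ ∏ i ∈ J, aff (μ i) (ν i)) :
    ρ ≤ (infinitePi μ Cᶜ) ^ (1 / 2 : ℝ) := by
  have hdense := Measure.MeasureDense.of_generateFrom_isSetAlgebra_finite
    (infinitePi μ + infinitePi ν) (isSetAlgebra_measurableCylinders (α := X))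
    generateFrom_measurableCylinders.symm
  have key : ∀ δ : ℝ, 0 < δ → ρ ≤ (infinitePi μ Cᶜ) ^ (1 / 2 : ℝ) +
      (2 * (ENNReal.ofReal δ) ^ (1 / 2 : ℝ)) := by
    intro δ hδ
    obtain ⟨D, hD, hCD⟩ := hdense.approx C hC (measure_ne_top _ _) δ hδ
    rw [mem_measurableCylinders] at hD
    obtain ⟨J, B, hB, rfl⟩ := hD
    have h1 := prod_aff_le μ ν J hB
    rw [Measure.add_apply] at hCD
    have h2 : infinitePi ν (cylinder J B) ≤ ENNReal.ofReal δ := by
      calc infinitePi ν (cylinder J B) ≤ infinitePi ν (C ∪ (C ∆ (cylinder J B))) := by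
            refine measure_mono fun x hx => ?_
            by_cases hxC : x ∈ C
            · exact Or.inl hxC
            · exact Or.inr (Or.inr ⟨hx, hxC⟩)
        _ ≤ infinitePi ν C + infinitePi ν (C ∆ (cylinder J B)) := measure_union_le _ _
        _ = infinitePi ν (C ∆ (cylinder J B)) := by rw [h0, zero_add]
        _ ≤ infinitePi μ (C ∆ (cylinder J B)) + infinitePi ν (C ∆ (cylinder J B)) :=
            le_add_self
        _ ≤ _ := hCD.le
    have h3 : infinitePi μ (cylinder J B)ᶜ ≤ infinitePi μ Cᶜ + ENNReal.ofReal δ := by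
      calc infinitePi μ (cylinder J B)ᶜ ≤ infinitePi μ (Cᶜ ∪ (C ∆ (cylinder J B))) := by
            refine measure_mono fun x hx => ?_
            by_cases hxC : x ∈ C
            · exact Or.inr (Or.inl ⟨hxC, hx⟩)
            · exact Or.inl hxC
        _ ≤ infinitePi μ Cᶜ + infinitePi μ (C ∆ (cylinder J B)) := measure_union_le _ _
        _ ≤ infinitePi μ Cᶜ + (infinitePi μ (C ∆ (cylinder J B)) +
              infinitePi ν (C ∆ (cylinder J B))) := by gcongr; exact le_self_add
        _ ≤ _ := by gcongr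
    calc ρ ≤ ∏ i ∈ J, aff (μ i) (ν i) := hρ J
      _ ≤ _ := h1
      _ ≤ (ENNReal.ofReal δ) ^ (1 / 2 : ℝ) +
          (infinitePi μ Cᶜ + ENNReal.ofReal δ) ^ (1 / 2 : ℝ) := by gcongr
      _ ≤ (ENNReal.ofReal δ) ^ (1 / 2 : ℝ) +
          ((infinitePi μ Cᶜ) ^ (1 / 2 : ℝ) + (ENNReal.ofReal δ) ^ (1 / 2 : ℝ)) := by
          gcongr
          exact ENNReal.rpow_add_le_add_rpow _ _ (by norm_num) (by norm_num)
      _ = _ := by ring
  refine ENNReal.le_of_forall_pos_le_add fun ε hε _ => ?_
  have h4 := key ((ε / 2) ^ 2) (by positivity)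
  have h5 : 2 * (ENNReal.ofReal (((ε : ℝ) / 2) ^ 2)) ^ (1 / 2 : ℝ) = ε := by
    rw [ENNReal.ofReal_rpow_of_nonneg (by positivity) (by norm_num), ← Real.sqrt_eq_rpow,
      Real.sqrt_sq (by positivity)]
    rw [show (2 : ℝ≥0∞) = ENNReal.ofReal 2 by norm_num, ← ENNReal.ofReal_mul (by norm_num)]
    rw [mul_div_cancel₀ _ (by norm_num : (2 : ℝ) ≠ 0)]
    exact ENNReal.ofReal_coe_nnreal
  rwa [h5] at h4

end

section
variable {α : Type*} [MeasurableSpace α] (a b : Measure α) [IsProbabilityMeasure a]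
  [IsProbabilityMeasure b]

theorem aff_le_one : aff a b ≤ 1 := by
  have h := ENNReal.lintegral_mul_le_Lp_mul_Lq b (p := 2) (q := 2) Real.HolderConjugate.two_two
    (f := fun x => (a.rnDeriv b x) ^ (1 / 2 : ℝ)) (g := fun _ => 1)
    ((measurable_rnDeriv a b).pow_const _).aemeasurable aemeasurable_const
  simp only [Pi.mul_apply, mul_one, ENNReal.one_rpow, lintegral_const,
    measure_univ] at h
  refine h.trans ?_
  have h2 : ∀ x, ((a.rnDeriv b x) ^ (1 / 2 : ℝ)) ^ (2 : ℝ) = a.rnDeriv b x := by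
    intro x
    rw [← ENNReal.rpow_mul]
    norm_num
  simp only [h2]
  have h3 : ∫⁻ x, a.rnDeriv b x ∂b ≤ 1 := by
    have := lintegral_rnDeriv_le (μ := a) (ν := b)
    rwa [measure_univ] at this
  calc (∫⁻ x, a.rnDeriv b x ∂b) ^ (1 / 2 : ℝ) ≤ (1 : ℝ≥0∞) ^ (1 / 2 : ℝ) := by gcongr
    _ = 1 := ENNReal.one_rpow _

theorem aff_self : aff b b = 1 := by
  unfold aff
  have h : (fun x => (b.rnDeriv b x) ^ (1 / 2 : ℝ)) =ᵐ[b] fun _ => 1 := by
    filter_upwards [rnDeriv_self b] with x hx
    rw [hx]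
    exact ENNReal.one_rpow _
  rw [lintegral_congr_ae h]
  simp

/-- The affinity as a real integral. -/
theorem ofReal_integral_sqrt :
    ENNReal.ofReal (∫ x, √(a.rnDeriv b x).toReal ∂b) = aff a b := by
  have h1 : ∫ x, √(a.rnDeriv b x).toReal ∂b =
      (∫⁻ x, ENNReal.ofReal (√(a.rnDeriv b x).toReal) ∂b).toReal :=
    integral_eq_lintegral_of_nonneg_ae (ae_of_all _ fun x => Real.sqrt_nonneg _)
      (((measurable_rnDeriv a b).ennreal_toReal).sqrt).aestronglyMeasurable
  have h2 : ∫⁻ x, ENNReal.ofReal (√(a.rnDeriv b x).toReal) ∂b = aff a b := by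
    unfold aff
    refine lintegral_congr_ae ?_
    filter_upwards [rnDeriv_ne_top a b] with x hx
    rw [Real.sqrt_eq_rpow, ← ENNReal.ofReal_rpow_of_nonneg ENNReal.toReal_nonneg (by norm_num),
      ENNReal.ofReal_toReal hx]
  rw [h1, h2, ENNReal.ofReal_toReal]
  exact ((aff_le_one a b).trans_lt ENNReal.one_lt_top).ne

theorem integral_sqrt_le_one : ∫ x, √(a.rnDeriv b x).toReal ∂b ≤ 1 := by
  have h := ofReal_integral_sqrt a b
  have h2 := aff_le_one a b
  rw [← h] at h2
  exact ENNReal.ofReal_le_one.1 h2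

omit [IsProbabilityMeasure a] [IsProbabilityMeasure b] in
theorem integral_sqrt_nonneg : 0 ≤ ∫ x, √(a.rnDeriv b x).toReal ∂b :=
  integral_nonneg fun _ => Real.sqrt_nonneg _

end

theorem one_sub_sum_le {ι : Type*} (J : Finset ι) (r : ι → ℝ) (h0 : ∀ i, 0 ≤ r i)
    (h1 : ∀ i, r i ≤ 1) : 1 - ∑ i ∈ J, (1 - r i) ≤ ∏ i ∈ J, r i := by
  classical
  induction J using Finset.induction_on with
  | empty => simp
  | insert i J hi ih =>
    rw [Finset.sum_insert hi, Finset.prod_insert hi]
    have hp0 : 0 ≤ ∏ i ∈ J, r i := Finset.prod_nonneg fun i _ => h0 i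
    have hp1 : ∏ i ∈ J, r i ≤ 1 := Finset.prod_le_one (fun i _ => h0 i) fun i _ => h1 i
    nlinarith [h0 i, h1 i]

section
variable {ι : Type*} (μ ν : ι → Measure ℝ) [∀ i, IsProbabilityMeasure (μ i)]
  [∀ i, IsProbabilityMeasure (ν i)]

open Classical in
/-- Change the laws in `F` to the laws `ν`. -/
noncomputable def chg (F : Finset ι) (i : ι) : Measure ℝ := if i ∈ F then ν i else μ i

instance (F : Finset ι) (i : ι) : IsProbabilityMeasure (chg μ ν F i) := by
  unfold chg
  split_ifs <;> infer_instance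

open Classical in
/-- Set the coordinates in `F` to zero. -/
noncomputable def kap (F : Finset ι) (x : ι → ℝ) (i : ι) : ℝ := if i ∈ F then 0 else x i

theorem map_kap (F : Finset ι) :
    (infinitePi μ).map (kap F) = (infinitePi (chg μ ν F)).map (kap F) := by
  classical
  have h : ∀ (μ' : ι → Measure ℝ) [∀ i, IsProbabilityMeasure (μ' i)],
      (infinitePi μ').map (kap F) =
        infinitePi fun i => (μ' i).map (if i ∈ F then fun _ => (0 : ℝ) else id) := by
    intro μ' _
    rw [← infinitePi_map_pi (μ := μ') (f := fun i => if i ∈ F then fun _ => (0 : ℝ) else id)]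
    · congr 1
      funext x i
      unfold kap
      split_ifs <;> rfl
    · intro i
      split_ifs
      · exact measurable_const
      · exact measurable_id
  rw [h μ, h (chg μ ν F)]
  congr 1
  funext i
  unfold chg
  split_ifs with hi
  · rw [Measure.map_const, Measure.map_const]
    simp
  · rfl

theorem measurable_kap (F : Finset ι) : Measurable (kap F : (ι → ℝ) → ι → ℝ) := by
  classical
  refine measurable_pi_lambda _ fun i => ?_
  unfold kap
  split_ifs
  · exact measurable_const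
  · exact measurable_pi_apply i

/-- Measurable sets which do not depend on the coordinates in `F`. -/
theorem apply_eq_of_inv (F : Finset ι) {C : Set (ι → ℝ)} (hC : MeasurableSet C)
    (hinv : ∀ x y : ι → ℝ, (∀ i, i ∉ F → x i = y i) → x ∈ C → y ∈ C) :
    infinitePi μ C = infinitePi (chg μ ν F) C := by
  have h : C = kap F ⁻¹' C := by
    ext x
    have hx : ∀ i, i ∉ F → x i = kap F x i := by
      intro i hi
      unfold kap
      rw [if_neg hi]
    exact ⟨fun h => hinv x _ hx h, fun h => hinv _ x (fun i hi => (hx i hi).symm) h⟩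
  have h1 := map_kap μ ν F
  have h2 : (infinitePi μ).map (kap F) C = (infinitePi (chg μ ν F)).map (kap F) C := by rw [h1]
  rw [Measure.map_apply (measurable_kap F) hC, Measure.map_apply (measurable_kap F) hC,
    ← h] at h2
  exact h2

open Classical in
/-- Take the coordinates in `F` from the second argument. -/
noncomputable def mix (F : Finset ι) (p : (ι → ℝ) × (ι → ℝ)) (i : ι) : ℝ :=
  if i ∈ F then p.2 i else p.1 i

theorem measurable_mix (F : Finset ι) :
    Measurable (mix F : (ι → ℝ) × (ι → ℝ) → ι → ℝ) := by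
  classical
  refine measurable_pi_lambda _ fun i => ?_
  unfold mix
  split_ifs
  · exact (measurable_pi_apply i).comp measurable_snd
  · exact (measurable_pi_apply i).comp measurable_fst

theorem map_mix (F : Finset ι) :
    ((infinitePi ν).prod (infinitePi ν)).map (mix F) = infinitePi ν := by
  classical
  refine eq_infinitePi _ fun s t ht => ?_
  have hbox : MeasurableSet ((s : Set ι).pi t) := MeasurableSet.pi s.countable_toSet fun i _ => ht i
  rw [Measure.map_apply (measurable_mix F) hbox]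
  have h : mix F ⁻¹' ((s : Set ι).pi t) =
      (((s \ F : Finset ι) : Set ι).pi t) ×ˢ (((s ∩ F : Finset ι) : Set ι).pi t) := by
    ext p
    simp only [mem_preimage, mem_pi, mem_prod, Finset.mem_coe, Finset.mem_sdiff,
      Finset.mem_inter, mix]
    constructor
    · intro h
      constructor
      · intro i hi
        have := h i hi.1
        rwa [if_neg hi.2] at this
      · intro i hi
        have := h i hi.1
        rwa [if_pos hi.2] at this
    · rintro ⟨h1, h2⟩ i hi
      split_ifs with hF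
      · exact h2 i ⟨hi, hF⟩
      · exact h1 i ⟨hi, hF⟩
  rw [h, Measure.prod_prod, infinitePi_pi _ (fun i _ => ht i), infinitePi_pi _ (fun i _ => ht i)]
  rw [mul_comm, ← Finset.prod_inter_mul_prod_sdiff s F]

/-- A null set which is invariant under changes in `F` is contained in a measurable null set with
the same property. -/
theorem exists_inv_null (F : Finset ι) {Bad : Set (ι → ℝ)} (h0 : infinitePi ν Bad = 0)
    (hinv : ∀ x y : ι → ℝ, (∀ i, i ∉ F → x i = y i) → x ∈ Bad → y ∈ Bad) :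
    ∃ C : Set (ι → ℝ), MeasurableSet C ∧ Bad ⊆ C ∧ infinitePi ν C = 0 ∧
      ∀ x y : ι → ℝ, (∀ i, i ∉ F → x i = y i) → x ∈ C → y ∈ C := by
  classical
  obtain ⟨A, hA1, hA2, hA3⟩ := exists_measurable_superset_of_null h0
  have hpre : MeasurableSet (mix F ⁻¹' A) := measurable_mix F hA2
  have hnull : ((infinitePi ν).prod (infinitePi ν)) (mix F ⁻¹' A) = 0 := by
    rw [← Measure.map_apply (measurable_mix F) hA2, map_mix, hA3]
  have hfib := (Measure.measure_prod_null hpre).1 hnull
  have hmeas : Measurable fun x : ι → ℝ => infinitePi ν (Prod.mk x ⁻¹' (mix F ⁻¹' A)) :=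
    measurable_measure_prodMk_left hpre
  refine ⟨{x | infinitePi ν (Prod.mk x ⁻¹' (mix F ⁻¹' A)) ≠ 0},
    hmeas (measurableSet_singleton (0 : ℝ≥0∞)).compl, ?_, ?_, ?_⟩
  · intro x hx
    have : Prod.mk x ⁻¹' (mix F ⁻¹' A) = univ := by
      ext y
      simp only [mem_preimage, mem_univ, iff_true]
      refine hA1 (hinv x _ (fun i hi => ?_) hx)
      unfold mix
      rw [if_neg hi]
    show infinitePi ν (Prod.mk x ⁻¹' (mix F ⁻¹' A)) ≠ 0
    rw [this, measure_univ]
    exact one_ne_zero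
  · exact hfib
  · intro x y hxy hx
    have : Prod.mk y ⁻¹' (mix F ⁻¹' A) = Prod.mk x ⁻¹' (mix F ⁻¹' A) := by
      ext z
      simp only [mem_preimage]
      have : mix F (y, z) = mix F (x, z) := by
        funext i
        unfold mix
        split_ifs with hi
        · rfl
        · exact (hxy i hi).symm
      rw [this]
    show infinitePi ν (Prod.mk y ⁻¹' (mix F ⁻¹' A)) ≠ 0
    rw [this]
    exact hx

/-- Kakutani: null sets invariant under finite changes. -/
theorem null_of_kakutani {Bad : Set (ι → ℝ)} (h0 : infinitePi ν Bad = 0)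
    (hinv : ∀ (F : Finset ι) (x y : ι → ℝ), (∀ i, i ∉ F → x i = y i) → x ∈ Bad → y ∈ Bad)
    (hsum : Summable fun i => 1 - ∫ x, √((μ i).rnDeriv (ν i) x).toReal ∂(ν i)) :
    infinitePi μ Bad = 0 := by
  classical
  set r : ι → ℝ := fun i => ∫ x, √((μ i).rnDeriv (ν i) x).toReal ∂(ν i) with hr
  have hr0 : ∀ i, 0 ≤ r i := fun i => integral_sqrt_nonneg _ _
  have hr1 : ∀ i, r i ≤ 1 := fun i => integral_sqrt_le_one _ _
  have hd : ∀ i, 0 ≤ 1 - r i := fun i => sub_nonneg.2 (hr1 i)
  refine le_antisymm ?_ (zero_le)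
  refine ENNReal.le_of_forall_pos_le_add fun ε hε _ => ?_
  rw [zero_add]
  -- choose `F` with a small tail
  have hε' : (0 : ℝ) < ε := by exact_mod_cast hε
  have hε2 : (0 : ℝ) < min ((ε : ℝ) / 2) 1 := lt_min (half_pos hε') one_pos
  obtain ⟨F, hF⟩ := summable_iff_vanishing_norm.1 hsum (min ((ε : ℝ) / 2) 1) hε2
  obtain ⟨C, hC1, hC2, hC3, hC4⟩ := exists_inv_null ν F h0 (hinv F)
  have h1 : infinitePi μ Bad ≤ infinitePi (chg μ ν F) C := by
    rw [← apply_eq_of_inv μ ν F hC1 hC4]
    exact measure_mono hC2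
  refine h1.trans ?_
  set τ : ℝ := min ((ε : ℝ) / 2) 1 with hτ
  have h2 : ∀ J : Finset ι, ENNReal.ofReal (1 - τ) ≤ ∏ i ∈ J, aff (chg μ ν F i) (ν i) := by
    intro J
    have h3 : ∏ i ∈ J, aff (chg μ ν F i) (ν i) = ∏ i ∈ J \ F, aff (μ i) (ν i) := by
      rw [← Finset.prod_inter_mul_prod_sdiff J F]
      have h4 : ∏ i ∈ J ∩ F, aff (chg μ ν F i) (ν i) = 1 := by
        refine Finset.prod_eq_one fun i hi => ?_
        unfold chg
        rw [if_pos (Finset.mem_inter.1 hi).2]
        exact aff_self _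
      rw [h4, one_mul]
      refine Finset.prod_congr rfl fun i hi => ?_
      unfold chg
      rw [if_neg (Finset.mem_sdiff.1 hi).2]
    rw [h3]
    have h5 : ∏ i ∈ J \ F, aff (μ i) (ν i) = ENNReal.ofReal (∏ i ∈ J \ F, r i) := by
      rw [ENNReal.ofReal_prod_of_nonneg fun i _ => hr0 i]
      refine Finset.prod_congr rfl fun i _ => ?_
      exact (ofReal_integral_sqrt _ _).symm
    rw [h5]
    refine ENNReal.ofReal_le_ofReal ?_
    refine le_trans ?_ (one_sub_sum_le (J \ F) r hr0 hr1)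
    have h6 := hF (J \ F) Finset.sdiff_disjoint
    rw [Real.norm_eq_abs, abs_of_nonneg (Finset.sum_nonneg fun i _ => hd i)] at h6
    linarith
  have h7 := le_compl_null (chg μ ν F) ν hC1 hC3 h2
  -- `1 - τ ≤ sqrt (1 - μ C)`
  have hτ1 : τ ≤ 1 := min_le_right _ _
  have hτ2 : τ ≤ ε / 2 := min_le_left _ _
  have h8 : (ENNReal.ofReal (1 - τ)) ^ (2 : ℝ) ≤ infinitePi (chg μ ν F) Cᶜ := by
    calc (ENNReal.ofReal (1 - τ)) ^ (2 : ℝ)
        ≤ ((infinitePi (chg μ ν F) Cᶜ) ^ (1 / 2 : ℝ)) ^ (2 : ℝ) := by gcongr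
      _ = infinitePi (chg μ ν F) Cᶜ := by
          rw [← ENNReal.rpow_mul]
          norm_num
  have h9 : infinitePi (chg μ ν F) C + infinitePi (chg μ ν F) Cᶜ = 1 :=
    prob_add_prob_compl hC1
  have h10 : (ENNReal.ofReal (1 - τ)) ^ (2 : ℝ) = ENNReal.ofReal ((1 - τ) ^ 2) := by
    rw [ENNReal.ofReal_rpow_of_nonneg (sub_nonneg.2 hτ1) (by norm_num)]
    norm_num
  rw [h10] at h8
  have h11 : infinitePi (chg μ ν F) C = 1 - infinitePi (chg μ ν F) Cᶜ :=
    ENNReal.eq_sub_of_add_eq (measure_ne_top _ _) h9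
  rw [h11]
  calc 1 - infinitePi (chg μ ν F) Cᶜ ≤ 1 - ENNReal.ofReal ((1 - τ) ^ 2) :=
        tsub_le_tsub_left h8 _
    _ = ENNReal.ofReal (1 - (1 - τ) ^ 2) := by
        rw [ENNReal.ofReal_sub _ (by positivity), ENNReal.ofReal_one]
    _ ≤ ENNReal.ofReal ε := by
        refine ENNReal.ofReal_le_ofReal ?_
        nlinarith [hε2.le]
    _ = ε := ENNReal.ofReal_coe_nnreal

end

end Vale.Agent.P158.H446
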