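import Mathlib.Probability.Independence.InfinitePi
import Mathlib.Probability.Independence.Integration
import Mathlib.MeasureTheory.Measure.SeparableMeasure
import Mathlib.MeasureTheory.Measure.Decomposition.RadonNikodym
import Mathlib.MeasureTheory.Integral.MeanInequalities

/-! A Kakutani type inequality for infinite product measures. -/

namespace Vale.Agent.P158.H446

open MeasureTheory Measure ProbabilityTheory Set
open scoped ENNReal

/-- Products of smaller measures are smaller. -/
theorem pi_le_pi {ι : Type*} [Fintype ι] {α : ι → Type*} [∀ i, MeasurableSpace (α i)]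
    {a b : ∀ i, Measure (α i)} [∀ i, SigmaFinite (a i)]
    (h : ∀ i, a i ≤ b i) : Measure.pi a ≤ Measure.pi b := by
  have h1 : (Measure.pi a).toOuterMeasure ≤
      OuterMeasure.pi fun i => (b i).toOuterMeasure := by
    rw [OuterMeasure.le_pi]
    intro s _
    show Measure.pi a (univ.pi s) ≤ ∏ i, b i (s i)
    rw [Measure.pi_pi]
    exact Finset.prod_le_prod' fun i _ => h i (s i)
  refine Measure.le_iff.2 fun s hs => ?_
  have h2 := h1 s
  refine h2.trans ?_
  rw [Measure.pi]
  exact le_toMeasure_apply _ _ _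

section
variable {ι : Type*} {X : ι → Type*} [∀ i, MeasurableSpace (X i)]
  (μ ν : ∀ i, Measure (X i)) [∀ i, IsProbabilityMeasure (μ i)] [∀ i, IsProbabilityMeasure (ν i)]

/-- The affinity of two measures. -/
noncomputable def aff {α : Type*} [MeasurableSpace α] (a b : Measure α) : ℝ≥0∞ :=
  ∫⁻ x, (a.rnDeriv b x) ^ (1 / 2 : ℝ) ∂b

theorem lintegral_prod_infinitePi (J : Finset ι) (f : ∀ i, X i → ℝ≥0∞)
    (hf : ∀ i, Measurable (f i)) :
    ∫⁻ x, ∏ i ∈ J, f i (x i) ∂(infinitePi ν) = ∏ i ∈ J, ∫⁻ x, f i x ∂(ν i) := by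
  have hind : iIndepFun (fun i (x : ∀ i, X i) => f i (x i)) (infinitePi ν) :=
    iIndepFun_infinitePi (X := fun i => f i) hf
  rw [lintegral_prod_eq_prod_lintegral_of_indepFun J _ hind
    (fun i => (hf i).comp (measurable_pi_apply i))]
  refine Finset.prod_congr rfl fun i _ => ?_
  have h1 := (measurePreserving_eval_infinitePi ν i).lintegral_comp (hf i)
  simpa [Function.eval] using h1

/-- The finite product of the densities. -/
noncomputable def dens (J : Finset ι) (x : ∀ i, X i) : ℝ≥0∞ :=
  ∏ i ∈ J, (μ i).rnDeriv (ν i) (x i)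

omit [∀ i, IsProbabilityMeasure (μ i)] [∀ i, IsProbabilityMeasure (ν i)] in
theorem measurable_dens (J : Finset ι) : Measurable (dens μ ν J) :=
  Finset.measurable_prod _ fun i _ => (measurable_rnDeriv _ _).comp (measurable_pi_apply i)

theorem map_withDensity_dens (J : Finset ι) :
    ((infinitePi ν).withDensity (dens μ ν J)).map J.restrict =
      Measure.pi fun i : J => (ν i).withDensity ((μ i).rnDeriv (ν i)) := by
  classical
  symm
  refine pi_eq fun t ht => ?_
  have hm : MeasurableSet (J.restrict ⁻¹' (univ.pi t) : Set (∀ i, X i)) :=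
    (Finset.measurable_restrict J) (MeasurableSet.univ_pi ht)
  rw [map_apply (Finset.measurable_restrict J) (MeasurableSet.univ_pi ht),
    withDensity_apply _ hm, ← lintegral_indicator hm]
  set t' : ∀ i, Set (X i) := fun i => if h : i ∈ J then t ⟨i, h⟩ else univ with ht'
  have hmt' : ∀ i, MeasurableSet (t' i) := by
    intro i
    by_cases h : i ∈ J
    · simp only [ht', h, dif_pos]; exact ht _
    · simp only [ht', h, dif_neg, not_false_iff]; exact MeasurableSet.univ
  have h1 : (J.restrict ⁻¹' (univ.pi t) : Set (∀ i, X i)).indicator (dens μ ν J) =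
      fun x => ∏ i ∈ J, (t' i).indicator ((μ i).rnDeriv (ν i)) (x i) := by
    funext x
    by_cases hx : x ∈ (J.restrict ⁻¹' (univ.pi t) : Set (∀ i, X i))
    · rw [indicator_of_mem hx]
      unfold dens
      refine Finset.prod_congr rfl fun i hi => ?_
      have : x i ∈ t' i := by
        have := hx ⟨i, hi⟩ (mem_univ _)
        simp only [ht', hi, dif_pos]
        exact this
      rw [indicator_of_mem this]
    · rw [indicator_of_notMem hx]
      symm
      have : ∃ i : J, x i ∉ t i := by
        by_contra hcon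
        push Not at hcon
        exact hx fun i _ => hcon i
      obtain ⟨i, hi⟩ := this
      refine Finset.prod_eq_zero i.2 ?_
      have : x i ∉ t' i := by
        simp only [ht', i.2, dif_pos]
        exact hi
      rw [indicator_of_notMem this]
  rw [h1, lintegral_prod_infinitePi ν J (fun i => (t' i).indicator ((μ i).rnDeriv (ν i)))
    (fun i => (measurable_rnDeriv _ _).indicator (hmt' i))]
  rw [← Finset.prod_coe_sort J]
  refine Finset.prod_congr rfl fun i _ => ?_
  have h2 : t' i = t i := by simp [ht']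
  rw [lintegral_indicator (hmt' i), h2, withDensity_apply _ (ht i)]

theorem setLIntegral_dens_le (J : Finset ι) {B : Set (∀ i : J, X i)} (hB : MeasurableSet B) :
    ∫⁻ x in cylinder J B, dens μ ν J x ∂(infinitePi ν) ≤ infinitePi μ (cylinder J B) := by
  have h1 : MeasurableSet (cylinder J B : Set (∀ i, X i)) := MeasurableSet.cylinder J hB
  rw [infinitePi_cylinder μ hB, ← withDensity_apply _ h1]
  have h2 := map_withDensity_dens μ ν J
  have h3 : ((infinitePi ν).withDensity (dens μ ν J)) (cylinder J B) =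
      (Measure.pi fun i : J => (ν i).withDensity ((μ i).rnDeriv (ν i))) B := by
    rw [← h2, map_apply (Finset.measurable_restrict J) hB]
    rfl
  rw [h3]
  exact pi_le_pi (fun i => withDensity_rnDeriv_le _ _) B

theorem setLIntegral_sqrt_le (J : Finset ι) {B : Set (∀ i : J, X i)} (hB : MeasurableSet B) :
    ∫⁻ x in cylinder J B, (dens μ ν J x) ^ (1 / 2 : ℝ) ∂(infinitePi ν) ≤
      (infinitePi μ (cylinder J B)) ^ (1 / 2 : ℝ) * (infinitePi ν (cylinder J B)) ^ (1 / 2 : ℝ) := by
  have hm := measurable_dens μ ν J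
  have h1 := ENNReal.lintegral_mul_le_Lp_mul_Lq ((infinitePi ν).restrict (cylinder J B))
    (p := 2) (q := 2) Real.HolderConjugate.two_two
    (f := fun x => (dens μ ν J x) ^ (1 / 2 : ℝ)) (g := fun _ => 1)
    (hm.pow_const _).aemeasurable aemeasurable_const
  simp only [Pi.mul_apply, mul_one, ENNReal.one_rpow, lintegral_const, one_mul,
    Measure.restrict_apply, MeasurableSet.univ, univ_inter] at h1
  refine h1.trans ?_
  gcongr
  have h2 : ∀ x, ((dens μ ν J x) ^ (1 / 2 : ℝ)) ^ (2 : ℝ) = dens μ ν J x := by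
    intro x
    rw [← ENNReal.rpow_mul]
    norm_num
  simp only [h2]
  exact setLIntegral_dens_le μ ν J hB

/-- The inequality for cylinders. -/
theorem prod_aff_le (J : Finset ι) {B : Set (∀ i : J, X i)} (hB : MeasurableSet B) :
    ∏ i ∈ J, aff (μ i) (ν i) ≤
      (infinitePi ν (cylinder J B)) ^ (1 / 2 : ℝ) +
        (infinitePi μ (cylinder J B)ᶜ) ^ (1 / 2 : ℝ) := by
  have h1 : MeasurableSet (cylinder J B : Set (∀ i, X i)) := MeasurableSet.cylinder J hB
  have h2 : ∏ i ∈ J, aff (μ i) (ν i) = ∫⁻ x, (dens μ ν J x) ^ (1 / 2 : ℝ) ∂(infinitePi ν) := by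
    unfold aff
    rw [← lintegral_prod_infinitePi ν J (fun i x => ((μ i).rnDeriv (ν i) x) ^ (1 / 2 : ℝ))
      (fun i => (measurable_rnDeriv _ _).pow_const _)]
    refine lintegral_congr fun x => ?_
    unfold dens
    rw [ENNReal.prod_rpow_of_nonneg (by norm_num)]
  rw [h2, ← lintegral_add_compl _ h1]
  have h3 := setLIntegral_sqrt_le μ ν J hB
  have h4 := setLIntegral_sqrt_le μ ν J hB.compl
  have h5 : (cylinder J Bᶜ : Set (∀ i, X i)) = (cylinder J B)ᶜ := rfl
  rw [h5] at h4
  refine add_le_add (h3.trans ?_) (h4.trans ?_)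
  · calc (infinitePi μ (cylinder J B)) ^ (1 / 2 : ℝ) * (infinitePi ν (cylinder J B)) ^ (1 / 2 : ℝ)
        ≤ 1 * (infinitePi ν (cylinder J B)) ^ (1 / 2 : ℝ) := by
          gcongr
          calc (infinitePi μ (cylinder J B)) ^ (1 / 2 : ℝ) ≤ (1 : ℝ≥0∞) ^ (1 / 2 : ℝ) := by
                gcongr; exact prob_le_one
            _ = 1 := ENNReal.one_rpow _
      _ = _ := one_mul _
  · calc (infinitePi μ (cylinder J B)ᶜ) ^ (1 / 2 : ℝ) *
          (infinitePi ν (cylinder J B)ᶜ) ^ (1 / 2 : ℝ)
        ≤ (infinitePi μ (cylinder J B)ᶜ) ^ (1 / 2 : ℝ) * 1 := by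
          gcongr
          calc (infinitePi ν (cylinder J B)ᶜ) ^ (1 / 2 : ℝ) ≤ (1 : ℝ≥0∞) ^ (1 / 2 : ℝ) := by
                gcongr; exact prob_le_one
            _ = 1 := ENNReal.one_rpow _
      _ = _ := mul_one _

end

end Vale.Agent.P158.H446
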