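import Vale.Agent.P158.H446.Inv
import Vale.Agent.P158.H219.Perturb

/-! No bigeodesics for independent weights whose laws are close to an atomless law. -/

namespace Vale.Agent.P158.H446

open MeasureTheory Measure ProbabilityTheory Set SimpleGraph

theorem walkWeight_append' {s : latt.edgeSet → ℝ} {x y z : V} (p : latt.Walk x y)
    (q : latt.Walk y z) : walkWeight s (p.append q) = walkWeight s p + walkWeight s q := by
  unfold walkWeight
  rw [Walk.darts_append, List.map_append, List.sum_append]

theorem walkWeight_cons' {s : latt.edgeSet → ℝ} {x y z : V} (h : latt.Adj x y)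
    (q : latt.Walk y z) : walkWeight s (Walk.cons h q) = s ⟨s(x, y), h⟩ + walkWeight s q := by
  unfold walkWeight
  rw [Walk.darts_cons, List.map_cons, List.sum_cons]
  rfl

theorem walkWeight_bypass_le {s : latt.edgeSet → ℝ} (hs : ∀ e, 0 ≤ s e) {x y : V}
    (p : latt.Walk x y) : walkWeight s p.bypass ≤ walkWeight s p := by
  classical
  induction p with
  | nil => exact le_refl _
  | cons h p ih =>
    simp only [SimpleGraph.Walk.bypass]
    split_ifs with hsup
    · have h1 := congrArg (walkWeight s) (p.bypass.take_spec hsup)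
      rw [walkWeight_append'] at h1
      have h2 := H219.walkWeight_nonneg hs (p.bypass.takeUntil _ hsup)
      rw [walkWeight_cons']
      have h3 := hs ⟨s(_, _), h⟩
      linarith
    · rw [walkWeight_cons', walkWeight_cons']
      linarith

theorem passageTime_le {t s : latt.edgeSet → ℝ} (ht : ∀ e, 0 ≤ t e)
    (hs : ∀ e, 0 ≤ s e) (hsum : Summable fun e => |s e - t e|) (x y : V) :
    passageTime s x y ≤ passageTime t x y + ∑' e, |s e - t e| := by
  classical
  obtain ⟨p₀, -⟩ := conn_univ x y
  have : Nonempty (latt.Walk x y) := ⟨p₀⟩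
  have key : ∀ p : latt.Walk x y, passageTime s x y - ∑' e, |s e - t e| ≤ walkWeight t p := by
    intro p
    have h1 : passageTime s x y ≤ walkWeight s p.bypass := by
      refine ciInf_le ⟨0, ?_⟩ p.bypass
      rintro _ ⟨q, rfl⟩
      exact H219.walkWeight_nonneg hs q
    have h2 : walkWeight s p.bypass ≤ walkWeight t p.bypass + ∑' e, |s e - t e| := by
      rw [H219.walkWeight_path p.bypass_isPath, H219.walkWeight_path p.bypass_isPath]
      have h3 : ∑ e ∈ T1.pe p.bypass, s e ≤ ∑ e ∈ T1.pe p.bypass, (t e + |s e - t e|) := by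
        refine Finset.sum_le_sum fun e _ => ?_
        have := le_abs_self (s e - t e)
        linarith
      rw [Finset.sum_add_distrib] at h3
      have := hsum.sum_le_tsum (T1.pe p.bypass) fun e _ => abs_nonneg _
      linarith
    have h3 := walkWeight_bypass_le ht p
    linarith
  have h4 : passageTime s x y - ∑' e, |s e - t e| ≤ passageTime t x y := le_ciInf key
  linarith

/-- The excess at every vertex diverges. -/
def Mid (s : latt.edgeSet → ℝ) : Prop :=
  ∀ z : V, Filter.Tendsto
    (fun p : V × V => passageTime s p.1 z + passageTime s z p.2 - passageTime s p.1 p.2)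
    (Filter.cofinite ×ˢ Filter.cofinite) Filter.atTop

theorem mid_of_excess {t s : latt.edgeSet → ℝ} (ht : ∀ e, 0 < t e)
    (hex : H219.ExcessDiverges t) (hs : ∀ e, 0 ≤ s e) (hsum : Summable fun e => |s e - t e|) :
    Mid s := by
  intro z
  rw [Filter.tendsto_atTop]
  intro C
  set L : ℝ := ∑' e, |s e - t e| with hL
  obtain ⟨N, hN⟩ := H219.passageTime_excess ht hex z (C + 3 * L)
  have hfin : (H219.box N).Finite := by rw [H219.box_eq]; exact T1.bx_finite 0 N
  have hbox : (H219.box N)ᶜ ∈ (Filter.cofinite : Filter V) := by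
    rw [Filter.mem_cofinite, compl_compl]
    exact hfin
  filter_upwards [Filter.prod_mem_prod hbox hbox] with p hp
  obtain ⟨hp1, hp2⟩ := hp
  have h1 := hN p.1 p.2 hp1 hp2
  have hsum' : Summable fun e => |t e - s e| := by
    simpa only [abs_sub_comm] using hsum
  have hL' : ∑' e, |t e - s e| = L := by
    rw [hL]
    exact tsum_congr fun e => abs_sub_comm _ _
  have h2 := passageTime_le (fun e => (ht e).le) hs hsum p.1 p.2
  have h3 := passageTime_le hs (fun e => (ht e).le) hsum' p.1 z
  have h4 := passageTime_le hs (fun e => (ht e).le) hsum' z p.2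
  rw [hL'] at h3 h4
  linarith

/-- The weights which are close to weights with a bigeodesic or without divergence of the
excess. -/
def bad : Set (latt.edgeSet → ℝ) :=
  {τ | ∃ s : latt.edgeSet → ℝ, (∀ e, 0 ≤ s e) ∧ (Summable fun e => |s e - τ e|) ∧
    ¬ ((∀ v : ℤ → V, ¬ IsBigeodesic s v) ∧ Mid s)}

theorem bad_inv (F : Finset latt.edgeSet) (x y : latt.edgeSet → ℝ)
    (hxy : ∀ e, e ∉ F → x e = y e) (hx : x ∈ bad) : y ∈ bad := by
  obtain ⟨s, hs, hsum, hv⟩ := hx
  refine ⟨s, hs, ?_, hv⟩
  refine (summable_congr_cofinite ?_).1 hsum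
  have hF : ∀ᶠ e in Filter.cofinite, e ∉ F := F.finite_toSet.eventually_cofinite_notMem
  filter_upwards [hF] with e he
  rw [hxy e he]

variable {G : Measure ℝ} [IsProbabilityMeasure G]

theorem bad_null (hG : G (Iio 0) = 0) (hatom : ∀ x, G {x} = 0) :
    infinitePi (fun _ : latt.edgeSet => G) bad = 0 := by
  have h := H219.ae_excess_transfer hG hatom (Ω := latt.edgeSet → ℝ)
    (P := infinitePi fun _ : latt.edgeSet => G) (t := fun e τ => τ e)
    (fun e => measurable_pi_apply e) (fun e => infinitePi_map_eval _ e)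
    (iIndepFun_infinitePi (P := fun _ : latt.edgeSet => G) (X := fun _ => id)
      fun _ => measurable_id)
  refine measure_mono_null (fun τ hτ => ?_) h
  obtain ⟨s, hs, hsum, hv⟩ := hτ
  rintro ⟨h1, h2⟩
  exact hv ⟨fun v => H219.not_isBigeodesic h1 h2 hs hsum v, mid_of_excess h1 h2 hs hsum⟩

theorem main (hG : G (Iio 0) = 0) (hatom : ∀ x, G {x} = 0)
    {Ω : Type*} [MeasurableSpace Ω] {P : Measure Ω} [IsProbabilityMeasure P]
    {t : latt.edgeSet → Ω → ℝ} (ht : ∀ e, Measurable (t e)) (hind : iIndepFun t P)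
    (hsum : Summable fun e => 1 - ∫ x, √((P.map (t e)).rnDeriv G x).toReal ∂G) :
    ∀ᵐ ω ∂P, ∀ s : latt.edgeSet → ℝ, (∀ e, 0 ≤ s e) → (Summable fun e => |s e - t e ω|) →
      (∀ v : ℤ → V, ¬ IsBigeodesic s v) ∧ Mid s := by
  have hprob : ∀ e, IsProbabilityMeasure (P.map (t e)) := fun e =>
    isProbabilityMeasure_map (ht e).aemeasurable
  have hmap : P.map (fun ω e => t e ω) = infinitePi fun e => P.map (t e) :=
    hind.map_fun_eq_infinitePi_map ht
  have h1 : infinitePi (fun e => P.map (t e)) bad = 0 :=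
    null_of_kakutani (fun e => P.map (t e)) (fun _ => G) (bad_null hG hatom) bad_inv hsum
  have h2 : ∀ᵐ τ ∂(P.map (fun ω e => t e ω)), τ ∉ bad := by
    rw [hmap]
    exact measure_eq_zero_iff_ae_notMem.1 h1
  have h3 := ae_of_ae_map (measurable_pi_lambda _ ht).aemeasurable h2
  filter_upwards [h3] with ω hω s hs hss
  by_contra hcon
  exact hω ⟨s, hs, hss, hcon⟩

end Vale.Agent.P158.H446
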